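import Vale.Agent.N109.Ent

/-! Bernoulli shifts: ergodicity, entropy, all values of the entropy. -/

set_option linter.unusedSectionVars false

noncomputable section

open MeasureTheory ProbabilityTheory Set Filter Topology
open scoped ENNReal symmDiff

namespace Vale.Agent.N109

open Vale.Agent.P109.KS

/-- The shift. -/
def sh (A : Type) [MeasurableSpace A] : (ℤ → A) ≃ᵐ (ℤ → A) where
  toFun w i := w (i + 1)
  invFun w i := w (i - 1)
  left_inv w := funext fun i => by simp
  right_inv w := funext fun i => by simp
  measurable_toFun := measurable_pi_lambda _ fun _ => measurable_pi_apply _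
  measurable_invFun := measurable_pi_lambda _ fun _ => measurable_pi_apply _

variable {A : Type} [MeasurableSpace A] (p : Measure A) [IsProbabilityMeasure p]

theorem sh_iter (n : ℕ) (w : ℤ → A) (i : ℤ) : (sh A)^[n] w i = w (i + n) := by
  induction n generalizing i with
  | zero => simp
  | succ n ih =>
    rw [Function.iterate_succ_apply']
    refine (ih (i + 1)).trans ?_
    push_cast
    rw [add_assoc, add_comm 1]

/-- The product measure. -/
abbrev bern : Measure (ℤ → A) := Measure.infinitePi fun _ : ℤ => p

theorem sh_mp : MeasurePreserving (sh A) (bern p) (bern p) :=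
  ⟨(sh A).measurable, Measure.map_infinitePi_infinitePi_of_inj (add_left_injective 1)⟩

theorem cyl_indep (s : Finset ℤ) {S : Set (s → A)} (hS : MeasurableSet S) : ∃ n : ℕ,
    bern p (cylinder s S ∩ (sh A)^[n] ⁻¹' cylinder s S) = bern p (cylinder s S) ^ 2 := by
  obtain ⟨m, hm⟩ := (s.image Int.natAbs).bddAbove
  have hm' : ∀ i ∈ s, i.natAbs ≤ m := fun i hi => hm (Finset.mem_image_of_mem _ hi)
  refine ⟨2 * m + 1, ?_⟩
  have hd : Disjoint s (s.image (· + ((2 * m + 1 : ℕ) : ℤ))) := by
    refine Finset.disjoint_left.2 fun i hi hj => ?_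
    obtain ⟨j, hj', rfl⟩ := Finset.mem_image.1 hj
    have := hm' _ hi
    have := hm' _ hj'
    omega
  have h1 := (iIndepFun_infinitePi (P := fun _ : ℤ => p) (X := fun _ w => w)
    fun _ => measurable_id).indepFun_finset _ _ hd fun _ => measurable_pi_apply _
  have h2 := h1.comp measurable_id (ψ := fun w (i : s) => w ⟨_, Finset.mem_image_of_mem _ i.2⟩)
    (measurable_pi_lambda _ fun _ => measurable_pi_apply _)
  have h3 := h2.measure_inter_preimage_eq_mul S S hS hS
  have e : (sh A)^[2 * m + 1] ⁻¹' cylinder s S =
      (fun (w : ℤ → A) (i : s) => w (i + ((2 * m + 1 : ℕ) : ℤ))) ⁻¹' S := by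
    ext w
    have : s.restrict ((sh A)^[2 * m + 1] w) = fun i : s => w (i + ((2 * m + 1 : ℕ) : ℤ)) :=
      funext fun i => sh_iter _ _ _
    simp only [mem_preimage, mem_cylinder, this]
  rw [sq]
  nth_rewrite 2 [← ((sh_mp p).iterate (2 * m + 1)).measure_preimage
    (hS.cylinder s).nullMeasurableSet]
  rw [e]
  exact h3

theorem sh_ergodic : Ergodic (sh A) (bern p) := by
  refine ⟨sh_mp p, ⟨fun s hs e => ?_⟩⟩
  have hd := Measure.MeasureDense.of_generateFrom_isSetAlgebra_finite (bern p)
    isSetAlgebra_measurableCylinders generateFrom_measurableCylinders.symm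
  have key : ∀ ε : ℝ, 0 < ε → (bern p).real s ≤ (bern p).real s ^ 2 + ε := fun ε hε => by
    obtain ⟨t, ht, h1⟩ := hd.approx s hs (measure_ne_top _ _) (ε / 4) (by positivity)
    obtain ⟨I, S, hS, rfl⟩ := (mem_measurableCylinders _).1 ht
    obtain ⟨n, hn⟩ := cyl_indep p I hS
    have ht : MeasurableSet (cylinder I S : Set (ℤ → A)) := MeasurableSet.cylinder I hS
    set t : Set (ℤ → A) := cylinder I S
    have h2 : (bern p).real (s ∆ t) ≤ ε / 4 :=
      ENNReal.toReal_le_of_le_ofReal (by positivity) h1.le
    have h3 := abs_le.1 ((abs_measureReal_sub_le_measureReal_symmDiff (μ := bern p)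
      hs.nullMeasurableSet ht.nullMeasurableSet).trans h2)
    have h4 : s ⊆ (t ∩ (sh A)^[n] ⁻¹' t) ∪ (s ∆ t ∪ (sh A)^[n] ⁻¹' (s ∆ t)) := fun w hw => by
      have hw' : (sh A)^[n] w ∈ s := by
        rwa [← mem_preimage, Function.IsFixedPt.preimage_iterate e n]
      simp only [mem_union, mem_inter_iff, mem_preimage, mem_symmDiff]
      tauto
    have h5 := (measureReal_mono (μ := bern p) h4).trans ((measureReal_union_le _ _).trans
      (add_le_add le_rfl (measureReal_union_le _ _)))
    rw [((sh_mp p).iterate n).measureReal_preimage (hs.symmDiff ht).nullMeasurableSet,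
      measureReal_def _ (t ∩ _), hn, ENNReal.toReal_pow, ← measureReal_def] at h5
    have h6 : (bern p).real s ≤ 1 := measureReal_le_one
    have h7 : (bern p).real t ≤ 1 := measureReal_le_one
    have h8 : 0 ≤ (bern p).real s := measureReal_nonneg
    have h9 : 0 ≤ (bern p).real t := measureReal_nonneg
    nlinarith
  have h1 := le_of_forall_pos_le_add key
  have h2 : (bern p).real s ≤ 1 := measureReal_le_one
  rw [eventuallyConst_set']
  rcases (measureReal_nonneg (μ := bern p) (s := s)).eq_or_lt with h | h
  · exact Or.inl (ae_eq_empty.2 ((measureReal_eq_zero_iff).1 h.symm))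
  · refine Or.inr (ae_eq_univ.2 ((measureReal_eq_zero_iff).1 ?_))
    rw [probReal_compl_eq_one_sub hs]
    nlinarith

variable [Fintype A]

theorem sum_prod_ent (q : A → ℝ) (hq : ∑ a, q a = 1) (n : ℕ) :
    ∑ w : Fin n → A, Real.negMulLog (∏ i, q (w i)) = n * ∑ a, Real.negMulLog (q a) := by
  classical
  induction n with
  | zero => simp
  | succ n ih =>
    have h1 : ∑ w : Fin n → A, ∏ i, q (w i) = 1 := by
      rw [← Fintype.piFinset_univ, ← Finset.prod_univ_sum]
      simp [hq]
    rw [← (Fin.consEquiv fun _ => A).sum_comp, Fintype.sum_prod_type]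
    simp only [Fin.consEquiv_apply, Fin.prod_univ_succ, Fin.cons_zero, Fin.cons_succ,
      Real.negMulLog_mul, Finset.sum_add_distrib, ← Finset.sum_mul, ← Finset.mul_sum, h1, ih, hq]
    push_cast
    ring

variable [DiscreteMeasurableSpace A]

theorem shannon_window {n : ℕ} {f : Fin n → ℤ} (hf : Function.Injective f) :
    shannon (bern p) (fun w i => w (f i)) = n * shannon p id := by
  have hm : Measurable fun (w : ℤ → A) i => w (f i) :=
    measurable_pi_lambda _ fun _ => measurable_pi_apply _
  rw [shannon, shannon, ← sum_prod_ent _ (sum_measureReal_eq_one (μ := p) (F := id)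
    fun _ => measurableSet_singleton _)]
  refine Finset.sum_congr rfl fun a _ => ?_
  rw [← map_measureReal_apply hm (measurableSet_singleton a),
    Measure.map_infinitePi_infinitePi_of_inj hf, measureReal_def,
    Measure.infinitePi_singleton_of_fintype, ENNReal.toReal_prod]
  rfl

attribute [local instance] patFin

theorem ks_bern : ksEntropy (bern p) (sh A) = ENNReal.ofReal (shannon p id) := by
  refine le_antisymm (ks_le_of_gen (C := fun c : ℤ × A => {w | w c.1 = c.2}) (sh_mp p)
    (fun c => ?_) ?_ fun s => ?_) ?_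
  · exact measurableSet_eq_fun (measurable_pi_apply c.1) measurable_const
  · refine iSup_le fun i => MeasurableSpace.comap_le_iff_le_map.2 fun S _ => ?_
    exact @MF.preimage (ℤ → A) (.generateFrom (range fun c : ℤ × A => {w | w c.1 = c.2})) A _
      (fun w => w i) (fun a => MeasurableSpace.measurableSet_generateFrom ⟨(i, a), rfl⟩) S
  · obtain ⟨m, hm⟩ := (s.image fun c => c.1.natAbs).bddAbove
    have hm' : ∀ c : s, c.1.1.natAbs ≤ m := fun c => hm (Finset.mem_image_of_mem _ c.2)
    have h1 : ∀ n, shannon (bern p) (name (sh A) (pat (fun c : ℤ × A => {w | w c.1 = c.2}) s) n) ≤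
        (n + 2 * m : ℕ) * shannon p id := fun n => by
      rw [← shannon_window p (f := fun i : Fin (n + 2 * m) => (i : ℤ) - m)
        fun i j h => Fin.ext (by simpa using h)]
      have hl : ∀ (j : Fin n) (c : s), (c.1.1 + j + m).toNat < n + 2 * m := fun j c => by
        have := hm' c
        omega
      have hw : Measurable fun (w : ℤ → A) (i : Fin (n + 2 * m)) => w ((i : ℤ) - m) :=
        measurable_pi_lambda _ fun _ => measurable_pi_apply _
      refine le_of_eq_of_le ?_ (shannon_comp_le (fun a => hw (measurableSet_singleton a))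
        fun (w : Fin (n + 2 * m) → A) (j : Fin n) (c : s) => w ⟨_, hl j c⟩ = c.1.2)
      congr 1
      funext w j c
      have := hm' c
      simp only [name, pat, mem_ofPred_eq, sh_iter]
      congr 2
      omega
    have h2 : Tendsto (fun n : ℕ => ENNReal.ofReal ((n + 2 * m : ℕ) * shannon p id / n)) atTop
        (𝓝 (ENNReal.ofReal (shannon p id))) := by
      refine ENNReal.tendsto_ofReal ?_
      have := (tendsto_const_div_atTop_nhds_zero_nat (2 * m * shannon p id)).const_add
        (shannon p id)
      rw [add_zero] at this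
      refine this.congr' ((eventually_gt_atTop 0).mono fun n hn => ?_)
      push_cast
      field_simp
    rw [← h2.limsup_eq]
    exact limsup_le_limsup (Eventually.of_forall fun n => ENNReal.ofReal_le_ofReal
      (div_le_div_of_nonneg_right (h1 n) (Nat.cast_nonneg n)))
  · refine le_trans (le_of_eq ?_) (rate_le_ks (sh A).measurable (g := fun w => w 0)
      fun a => measurable_pi_apply 0 (measurableSet_singleton a))
    refine (Tendsto.limsup_eq (tendsto_const_nhds.congr'
      ((eventually_gt_atTop 0).mono fun n hn => ?_))).symm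
    have : name (sh A) (fun w => w 0) n = fun w (i : Fin n) => w (i : ℤ) := by
      funext w i
      simp only [name, sh_iter, zero_add]
    rw [this, shannon_window p fun i j h => Fin.ext (by simpa using h)]
    congr 1
    field_simp

theorem exists_vector {h : ℝ} (h0 : 0 ≤ h) : ∃ (k : ℕ) (p : Measure (Fin (k + 1))),
    IsProbabilityMeasure p ∧ shannon p id = h := by
  obtain ⟨k, hk⟩ := exists_nat_ge (Real.exp h)
  have hk' : (0 : ℝ) < k + 1 := by positivity
  let q : ℝ → Fin (k + 1) → ℝ := fun t a => (if a = 0 then 1 - t else 0) + t / (k + 1)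
  have hc : Continuous fun t => ∑ a, Real.negMulLog (q t a) := by
    refine continuous_finsetSum _ fun a _ => Real.continuous_negMulLog.comp ?_
    simp only [q]
    split_ifs <;> fun_prop
  have h1 : ∑ a, Real.negMulLog (q 0 a) = 0 := Finset.sum_eq_zero fun a _ => by
    simp only [q]
    split_ifs <;> simp
  have h2 : h ≤ ∑ a, Real.negMulLog (q 1 a) := by
    simp only [q, sub_self, ite_self, zero_add, Finset.sum_const, Finset.card_univ,
      Fintype.card_fin, nsmul_eq_mul, Real.negMulLog, one_div, Real.log_inv]
    push_cast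
    field_simp
    rw [Real.le_log_iff_exp_le hk']
    linarith
  obtain ⟨t, ht, e⟩ := intermediate_value_Icc zero_le_one hc.continuousOn ⟨h1.trans_le h0, h2⟩
  have h3 : ∀ a, 0 ≤ q t a := fun a => add_nonneg (by split_ifs <;> linarith [ht.2])
    (div_nonneg ht.1 hk'.le)
  have h4 : ∑ a, ENNReal.ofReal (q t a) = 1 := by
    rw [← ENNReal.ofReal_sum_of_nonneg fun a _ => h3 a, ← ENNReal.ofReal_one]
    simp only [q, Finset.sum_add_distrib, Finset.sum_ite_eq', Finset.mem_univ, if_true,
      Finset.sum_const, Finset.card_univ, Fintype.card_fin, nsmul_eq_mul]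
    congr 1
    push_cast
    field_simp
    ring
  refine ⟨k, (PMF.ofFintype _ h4).toMeasure, inferInstance, Eq.trans ?_ e⟩
  refine Finset.sum_congr rfl fun a _ => ?_
  rw [preimage_id, measureReal_def, PMF.toMeasure_apply_singleton _ _ (measurableSet_singleton a),
    PMF.ofFintype_apply, ENNReal.toReal_ofReal (h3 a)]

end Vale.Agent.N109
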