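import Vale.Agent.P109L.Defs

/-! Factors of measure preserving systems. -/

open MeasureTheory

namespace Vale.Agent.N109

/-- `(Y, ν, R)` is a factor of `(X, μ, T)`: a measurable map `π` carries `μ` to `ν`, and
`π ∘ T = R ∘ π` almost everywhere. -/
def Factor {X Y : Type} [MeasurableSpace X] [MeasurableSpace Y] (μ : Measure X) (T : X → X)
    (ν : Measure Y) (R : Y → Y) : Prop :=
  ∃ π : X → Y, MeasurePreserving π μ ν ∧ ∀ᵐ x ∂μ, π (T x) = R (π x)

end Vale.Agent.N109
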