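import Mathlib
import Vale.Agent.P109.H787.Shannon

/-! Entropy of factors, entropy from a generating family of sets, entropy of joinings. -/

set_option linter.unusedSectionVars false

noncomputable section

open MeasureTheory Set Filter
open scoped ENNReal symmDiff

namespace Vale.Agent.N109

open Vale.Agent.P109.KS

variable {X Y : Type} [MeasurableSpace X] [MeasurableSpace Y] {μ : Measure X} {ν : Measure Y}
  {A B : Type} [Fintype A] [Fintype B] {T : X → X} {R : Y → Y}

/-- The fibres are measurable. -/
def MF (g : X → A) : Prop := ∀ a, MeasurableSet (g ⁻¹' {a})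

/-- The growth rate of the entropy of the names. -/
def rate (μ : Measure X) (T : X → X) (g : X → A) : ℝ≥0∞ :=
  limsup (fun n : ℕ => ENNReal.ofReal (shannon μ (name T g n) / n)) atTop

theorem MF.preimage {g : X → A} (h : MF g) (S : Set A) : MeasurableSet (g ⁻¹' S) := by
  rw [← biUnion_preimage_singleton]
  exact (toFinite S).measurableSet_biUnion fun a _ => h a

theorem MF.comp {g : X → A} (h : MF g) (φ : A → B) : MF fun x => φ (g x) :=
  fun b => h.preimage (φ ⁻¹' {b})

theorem MF.pair {f : X → A} {g : X → B} (hf : MF f) (hg : MF g) : MF fun x => (f x, g x) :=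
  fun q => by
    have : (fun x => (f x, g x)) ⁻¹' {q} = f ⁻¹' {q.1} ∩ g ⁻¹' {q.2} := by
      ext x
      simp [Prod.ext_iff]
    rw [this]
    exact (hf _).inter (hg _)

theorem MF.pull {g : Y → A} (h : MF g) {π : X → Y} (hπ : Measurable π) : MF fun x => g (π x) :=
  fun a => hπ (h a)

theorem limsup_add (u v : ℕ → ℝ≥0∞) :
    limsup (fun n => u n + v n) atTop ≤ limsup u atTop + limsup v atTop := by
  refine ENNReal.le_of_forall_pos_le_add fun ε hε hf => ?_
  obtain ⟨h1, h2⟩ := ENNReal.add_lt_top.1 hf
  have h0 : (ε : ℝ≥0∞) / 2 ≠ 0 := by simpa using hε.ne'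
  refine limsup_le_of_le (by isBoundedDefault) ?_
  filter_upwards [eventually_lt_of_limsup_lt (ENNReal.lt_add_right h1.ne h0),
    eventually_lt_of_limsup_lt (ENNReal.lt_add_right h2.ne h0)] with n a b
  refine (add_le_add a.le b.le).trans_eq ?_
  rw [add_add_add_comm, ENNReal.add_halves]

theorem rate_mono {X' : Type} [MeasurableSpace X'] {μ' : Measure X'} {T' : X' → X'} {f : X → A}
    {g : X' → B} (h : ∀ n, shannon μ (name T f n) ≤ shannon μ' (name T' g n)) :
    rate μ T f ≤ rate μ' T' g :=
  limsup_le_limsup (Eventually.of_forall fun n => ENNReal.ofReal_le_ofReal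
    (div_le_div_of_nonneg_right (h n) (Nat.cast_nonneg n)))

theorem rate_factor {π : X → Y} (hπ : MeasurePreserving π μ ν) (hT : MeasurePreserving T μ μ)
    (hR : Measurable R) (h : ∀ᵐ x ∂μ, π (T x) = R (π x)) {g : Y → A} (hg : MF g) :
    rate μ T (fun x => g (π x)) = rate ν R g := by
  have h1 : ∀ i : ℕ, ∀ᵐ x ∂μ, π (T^[i] x) = R^[i] (π x) := fun i => by
    induction i with
    | zero => exact Eventually.of_forall fun x => rfl
    | succ i ih =>
      filter_upwards [ih, (hT.iterate i).quasiMeasurePreserving.ae h] with x a b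
      rw [Function.iterate_succ_apply', Function.iterate_succ_apply', b, a]
  have h2 : ∀ n, shannon μ (name T (fun x => g (π x)) n) = shannon ν (name R g n) := fun n => by
    refine Finset.sum_congr rfl fun a _ => ?_
    rw [measureReal_def, measureReal_def,
      ← hπ.measure_preimage (measurableSet_name hR hg n a).nullMeasurableSet]
    congr 2
    refine measure_congr (eventuallyEq_set.2 ?_)
    filter_upwards [ae_all_iff.2 h1] with x hx
    have : name T (fun x => g (π x)) n x = name R g n (π x) := funext fun i => congrArg g (hx i)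
    simp only [mem_preimage, this]
  simp only [rate, h2]

theorem ks_factor {π : X → Y} (hπ : MeasurePreserving π μ ν) (hT : MeasurePreserving T μ μ)
    (hR : Measurable R) (h : ∀ᵐ x ∂μ, π (T x) = R (π x)) : ksEntropy ν R ≤ ksEntropy μ T := by
  refine iSup_le fun k => iSup_le fun f => iSup_le fun hf => ?_
  refine le_trans (rate_factor hπ hT hR h fun a => hf (measurableSet_singleton a)).ge ?_
  exact le_iSup₂_of_le k _ (le_iSup_of_le (hf.comp hπ.measurable) le_rfl)

variable [IsProbabilityMeasure μ]

theorem rate_comp_le (hT : Measurable T) {g : X → A} (hg : MF g) (φ : A → B) :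
    rate μ T (fun x => φ (g x)) ≤ rate μ T g :=
  rate_mono fun n => shannon_comp_le (measurableSet_name hT hg n) fun w i => φ (w i)

theorem rate_pair_le (hT : Measurable T) {f : X → A} {g : X → B} (hf : MF f) (hg : MF g) :
    rate μ T (fun x => (f x, g x)) ≤ rate μ T f + rate μ T g := by
  refine le_trans (limsup_le_limsup (Eventually.of_forall fun n => ?_)) (limsup_add _ _)
  have h1 := measurableSet_name hT hf n
  have h2 := measurableSet_name hT hg n
  have h3 := shannon_comp_le (μ := μ) (MF.pair h1 h2) fun q i => (q.1 i, q.2 i)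
  have h4 := shannon_prod_le (μ := μ) h1 h2
  refine le_trans (ENNReal.ofReal_le_ofReal ?_) ENNReal.ofReal_add_le
  rw [← add_div]
  exact div_le_div_of_nonneg_right (h3.trans h4) (Nat.cast_nonneg n)

theorem rate_le_shannon (hT : MeasurePreserving T μ μ) {e : X → A} (he : MF e) :
    rate μ T e ≤ ENNReal.ofReal (shannon μ e) := by
  refine limsup_le_of_le (by isBoundedDefault) ?_
  filter_upwards [eventually_gt_atTop 0] with n hn
  refine ENNReal.ofReal_le_ofReal ?_
  rw [div_le_iff₀' (by exact_mod_cast hn)]
  exact shannon_name_le hT he n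

theorem rate_le_ks (hT : Measurable T) {g : X → A} (hg : MF g) : rate μ T g ≤ ksEntropy μ T := by
  have e := Fintype.equivFin A
  have h := rate_comp_le (μ := μ) hT (hg.comp e) e.symm
  simp only [Equiv.symm_apply_apply] at h
  exact h.trans (le_iSup₂_of_le _ (fun x => e (g x))
    (le_iSup_of_le (measurable_to_countable' (hg.comp e)) le_rfl))

theorem rate_le_of_close (hT : MeasurePreserving T μ μ) {f : X → A} (hf : MF f) {c : ℝ≥0∞}
    (h : ∀ δ : ℝ, 0 < δ → ∃ g : X → A, MF g ∧ μ.real {x | f x ≠ g x} ≤ δ ∧ rate μ T g ≤ c) :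
    rate μ T f ≤ c := by
  classical
  refine ENNReal.le_of_forall_pos_le_add fun ε hε _ => ?_
  obtain ⟨δ, hδ, hs⟩ := exists_shannon_small A (ε := ε) hε
  obtain ⟨g, hg, h1, h2⟩ := h δ hδ
  have he : MF fun x => if f x = g x then none else some (f x) :=
    (hf.pair hg).comp fun q => if q.1 = q.2 then none else some q.1
  have h3 := hs X μ _ he (by simpa using h1)
  have h4 := rate_comp_le (μ := μ) hT.measurable (hg.pair he) fun q => q.2.getD q.1
  have h5 : (fun x => (if f x = g x then none else some (f x)).getD (g x)) = f := by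
    funext x
    split_ifs with hx
    · exact hx.symm
    · rfl
  simp only [h5] at h4
  refine h4.trans ((rate_pair_le hT.measurable hg he).trans (add_le_add h2 ?_))
  exact (rate_le_shannon hT he).trans ((ENNReal.ofReal_le_ofReal h3).trans_eq
    ENNReal.ofReal_coe_nnreal)

section gen

variable {κ : Type} (C : κ → Set X)

/-- The list of the sets `C c`, `c ∈ s`, that contain the point. -/
def pat (s : Finset κ) (x : X) : s → Prop := fun c => x ∈ C c

open Classical in
/-- There are finitely many lists. -/
abbrev patFin (s : Finset κ) : Fintype (s → Prop) := inferInstance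

attribute [local instance] patFin

variable {C}

omit [IsProbabilityMeasure μ] in
theorem mf_pat (hC : ∀ c, MeasurableSet (C c)) (s : Finset κ) : MF (pat C s) := fun a => by
  have : Measurable (pat C s) := measurable_pi_lambda _ fun c => (hC c).mem
  exact this (measurableSet_singleton a)

theorem pat_dense (hC : ∀ c, MeasurableSet (C c))
    (hg : ‹MeasurableSpace X› ≤ MeasurableSpace.generateFrom (range C)) :
    μ.MeasureDense {S | ∃ (s : Finset κ) (P : Set (s → Prop)), S = pat C s ⁻¹' P} := by
  classical
  refine .of_generateFrom_isSetAlgebra_finite μ ⟨⟨∅, ∅, rfl⟩, ?_, ?_⟩ (le_antisymm ?_ ?_)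
  · rintro _ ⟨s, P, rfl⟩
    exact ⟨s, Pᶜ, rfl⟩
  · rintro _ _ ⟨s, P, rfl⟩ ⟨t, Q, rfl⟩
    exact ⟨s ∪ t, {w | (fun c : s => w ⟨c, Finset.mem_union_left _ c.2⟩) ∈ P ∨
      (fun c : t => w ⟨c, Finset.mem_union_right _ c.2⟩) ∈ Q}, rfl⟩
  · refine hg.trans (MeasurableSpace.generateFrom_mono ?_)
    rintro _ ⟨c, rfl⟩
    exact ⟨{c}, {w | w ⟨c, Finset.mem_singleton_self c⟩}, rfl⟩
  · refine MeasurableSpace.generateFrom_le ?_
    rintro _ ⟨s, P, rfl⟩
    exact (mf_pat hC s).preimage P

/-- The entropy is computed by the partitions made from a generating family of sets. -/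
theorem ks_le_of_gen (hT : MeasurePreserving T μ μ) (hC : ∀ c, MeasurableSet (C c))
    (hg : ‹MeasurableSpace X› ≤ MeasurableSpace.generateFrom (range C)) {h : ℝ≥0∞}
    (H : ∀ s : Finset κ, rate μ T (pat C s) ≤ h) : ksEntropy μ T ≤ h := by
  classical
  refine iSup_le fun k => iSup_le fun f => iSup_le fun hf => ?_
  have hf' : MF f := fun a => hf (measurableSet_singleton a)
  refine rate_le_of_close hT hf' fun δ hδ => ?_
  obtain ⟨x0⟩ := nonempty_of_isProbabilityMeasure μ
  have hk : (0 : ℝ) < k := by exact_mod_cast (f x0).pos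
  have h1 := fun a => (pat_dense (μ := μ) hC hg).approx _ (hf' a) (measure_ne_top _ _) (δ / k)
    (by positivity)
  choose S hS h2 using h1
  choose s P hP using hS
  let t : Finset κ := Finset.univ.biUnion s
  let Q : Fin k → (t → Prop) → Prop := fun a w =>
    (fun c : s a => w ⟨c, Finset.mem_biUnion.2 ⟨a, Finset.mem_univ a, c.2⟩⟩) ∈ P a
  have hQ : ∀ a x, x ∈ S a ↔ Q a (pat C t x) := fun a x => by
    rw [hP]
    rfl
  let γ : (t → Prop) → Fin k := fun w => if h : ∃ a, Q a w then h.choose else f x0
  refine ⟨fun x => γ (pat C t x), (mf_pat hC t).comp γ, ?_,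
    (rate_comp_le hT.measurable (mf_pat hC t) γ).trans (H t)⟩
  have h3 : {x | f x ≠ γ (pat C t x)} ⊆ ⋃ a ∈ Finset.univ, (f ⁻¹' {a}) ∆ S a := by
    intro x hx
    by_contra hcon
    simp only [mem_iUnion, Finset.mem_univ, exists_prop, true_and, not_exists] at hcon
    have h4 : ∀ a, f x = a ↔ Q a (pat C t x) := fun a => by
      have h5 := hcon a
      rw [Set.mem_symmDiff, hQ] at h5
      simp only [mem_preimage, mem_singleton_iff] at h5
      tauto
    have h6 : ∃ a, Q a (pat C t x) := ⟨f x, (h4 _).1 rfl⟩
    exact hx (((h4 _).2 h6.choose_spec).trans (dif_pos h6).symm)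
  refine (measureReal_mono h3 (measure_ne_top _ _)).trans ((measureReal_biUnion_finset_le _ _).trans
    ((Finset.sum_le_sum fun a _ => ENNReal.toReal_le_of_le_ofReal (by positivity)
      (h2 a).le).trans_eq ?_))
  rw [Finset.sum_const, Finset.card_univ, Fintype.card_fin, nsmul_eq_mul]
  field_simp

end gen

/-- The entropy of a joining is at most the sum of the entropies. -/
theorem ks_joining [IsProbabilityMeasure ν] {l : Measure (X × Y)} [IsProbabilityMeasure l]
    (hT : Measurable T) (hR : Measurable R) (h : MeasurePreserving (Prod.map T R) l l)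
    (h1 : MeasurePreserving Prod.fst l μ) (h2 : MeasurePreserving Prod.snd l ν) :
    ksEntropy l (Prod.map T R) ≤ ksEntropy μ T + ksEntropy ν R := by
  let κ := {S : Set X // MeasurableSet S} × {S : Set Y // MeasurableSet S}
  refine ks_le_of_gen (C := fun c : κ => c.1.1 ×ˢ c.2.1) h (fun c => c.1.2.prod c.2.2) ?_
    fun s => ?_
  · rw [← generateFrom_prod]
    refine MeasurableSpace.generateFrom_mono ?_
    rintro _ ⟨S, hS, U, hU, rfl⟩
    exact ⟨(⟨S, hS⟩, ⟨U, hU⟩), rfl⟩
  · let _ := patFin s
    have a := mf_pat (C := fun c : κ => c.1.1) (fun c => c.1.2) s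
    have b := mf_pat (C := fun c : κ => c.2.1) (fun c => c.2.2) s
    have a' := a.pull (measurable_fst (β := Y))
    have b' := b.pull (measurable_snd (α := X))
    refine (rate_comp_le h.measurable (a'.pair b') fun q c => q.1 c ∧ q.2 c).trans
      ((rate_pair_le h.measurable a' b').trans (add_le_add ?_ ?_))
    · exact (rate_factor h1 h hT (Eventually.of_forall fun _ => rfl) a).trans_le (rate_le_ks hT a)
    · exact (rate_factor h2 h hR (Eventually.of_forall fun _ => rfl) b).trans_le (rate_le_ks hR b)

end Vale.Agent.N109
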