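import Mathlib

/-! Two ergodic systems on standard Borel spaces have an ergodic joining. -/

noncomputable section

open MeasureTheory Set Filter BoundedContinuousFunction
open scoped ENNReal

namespace Vale.Agent.N109

variable {X Y : Type} [MeasurableSpace X] [MeasurableSpace Y] {μ : Measure X} {ν : Measure Y}

theorem marginal_eq {Z : Type} [MeasurableSpace Z] {l l' : Measure Z} [IsProbabilityMeasure μ]
    [IsProbabilityMeasure l'] {f : X → X} {F : Z → Z} {p : Z → X} (hf : Ergodic f μ)
    (hp : Measurable p) (hl : l.map p = μ) (h : MeasurePreserving F l' l') (hac : l' ≪ l)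
    (hc : ∀ z, p (F z) = f (p z)) : l'.map p = μ := by
  have := Measure.isProbabilityMeasure_map (μ := l') hp.aemeasurable
  refine hf.eq_of_absolutelyContinuous ?_ (hl ▸ hac.map hp)
  exact (hp.measurePreserving l').of_semiconj h hc hf.measurable

theorem joining_cont [TopologicalSpace X] [PolishSpace X] [BorelSpace X] [TopologicalSpace Y]
    [PolishSpace Y] [BorelSpace Y] [IsProbabilityMeasure μ] [IsProbabilityMeasure ν] {f : X → X}
    {g : Y → Y} (cf : Continuous f) (cg : Continuous g) (hf : Ergodic f μ) (hg : Ergodic g ν) :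
    ∃ l : Measure (X × Y), IsProbabilityMeasure l ∧ Ergodic (Prod.map f g) l ∧
      l.map Prod.fst = μ ∧ l.map Prod.snd = ν := by
  have cfg := cf.prodMap cg
  let J : Set (ProbabilityMeasure (X × Y)) := {l | (l : Measure (X × Y)).map Prod.fst = μ ∧
    (l : Measure (X × Y)).map Prod.snd = ν ∧ (l : Measure (X × Y)).map (Prod.map f g) = l}
  have hcl : IsClosed J := by
    have e : J = {l | l.map continuous_fst.measurable.aemeasurable = ⟨μ, inferInstance⟩} ∩
        ({l | l.map continuous_snd.measurable.aemeasurable = ⟨ν, inferInstance⟩} ∩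
          {l | l.map cfg.measurable.aemeasurable = l}) := by
      ext l
      exact ⟨fun h => ⟨Subtype.ext h.1, Subtype.ext h.2.1, Subtype.ext h.2.2⟩,
        fun h => ⟨congrArg Subtype.val h.1, congrArg Subtype.val h.2.1, congrArg Subtype.val h.2.2⟩⟩
    rw [e]
    exact (isClosed_eq (ProbabilityMeasure.continuous_map continuous_fst) continuous_const).inter
      ((isClosed_eq (ProbabilityMeasure.continuous_map continuous_snd) continuous_const).inter
        (isClosed_eq (ProbabilityMeasure.continuous_map cfg) continuous_id))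
  have hc : IsCompact J := by
    rw [← hcl.closure_eq]
    refine isCompact_closure_of_isTightMeasureSet (.prodMk ?_ ?_)
    · refine (isTightMeasureSet_singleton (μ := μ)).subset ?_
      rintro _ ⟨_, ⟨l, hl, rfl⟩, rfl⟩
      exact hl.1
    · refine (isTightMeasureSet_singleton (μ := ν)).subset ?_
      rintro _ ⟨_, ⟨l, hl, rfl⟩, rfl⟩
      exact hl.2.1
  have hne : J.Nonempty := ⟨⟨μ.prod ν, inferInstance⟩, Measure.fst_prod, Measure.snd_prod,
    (hf.toMeasurePreserving.prod hg.toMeasurePreserving).map_eq⟩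
  let Φ : ProbabilityMeasure (X × Y) → ((X × Y) →ᵇ ℝ) → ℝ := fun l φ => ∫ z, φ z ∂l
  have hΦ : Continuous Φ :=
    continuous_pi fun φ => ProbabilityMeasure.continuous_integral_boundedContinuousFunction φ
  obtain ⟨_, hx⟩ := (hc.image hΦ).extremePoints_nonempty (hne.image Φ)
  obtain ⟨⟨l, hl, rfl⟩, hx⟩ := mem_extremePoints_iff_left.1 hx
  refine ⟨l, inferInstance, .of_mem_extremePoints (mem_extremePoints_iff_left.2
    ⟨⟨⟨cfg.measurable, hl.2.2⟩, inferInstance⟩, ?_⟩), hl.1, hl.2.1⟩
  rintro l₁ ⟨a1, i1⟩ l₂ ⟨a2, i2⟩ ⟨a, b, ha, hb, hab, e⟩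
  have c1 : l₁ ≪ l := e ▸ (Measure.absolutelyContinuous_smul ha.ne').add_right _
  have c2 : l₂ ≪ l := e ▸ add_comm (b • l₂) _ ▸
    (Measure.absolutelyContinuous_smul hb.ne').add_right _
  have m : ∀ (l' : Measure (X × Y)) [IsProbabilityMeasure l'],
      MeasurePreserving (Prod.map f g) l' l' → l' ≪ l → ⟨l', inferInstance⟩ ∈ J :=
    fun l' _ h hac => ⟨marginal_eq (l' := l') hf measurable_fst hl.1 h hac fun _ => rfl,
      marginal_eq (l' := l') hg measurable_snd hl.2.1 h hac fun _ => rfl, h.map_eq⟩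
  have ha' : a ≠ ∞ := ne_top_of_le_ne_top ENNReal.one_ne_top (hab ▸ le_self_add)
  have hb' : b ≠ ∞ := ne_top_of_le_ne_top ENNReal.one_ne_top (hab ▸ le_add_self)
  have key := hx _ ⟨_, m l₁ a1 c1, rfl⟩ _ ⟨_, m l₂ a2 c2, rfl⟩
    ⟨a.toReal, b.toReal, ENNReal.toReal_pos ha.ne' ha', ENNReal.toReal_pos hb.ne' hb',
      by rw [← ENNReal.toReal_add ha' hb', hab, ENNReal.toReal_one], funext fun φ => by
        simp only [Φ, Pi.add_apply, Pi.smul_apply, ProbabilityMeasure.coe_mk, ← e]
        rw [integral_add_measure ((φ.integrable _).smul_measure ha')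
          ((φ.integrable _).smul_measure hb'), integral_smul_measure, integral_smul_measure]⟩
  exact ext_of_forall_integral_eq_of_IsFiniteMeasure fun φ => congrFun key φ

theorem ergodic_factor {π : X → Y} {T : X → X} {R : Y → Y} (hπ : MeasurePreserving π μ ν)
    (hT : Ergodic T μ) (hR : Measurable R) (h : ∀ᵐ x ∂μ, π (T x) = R (π x)) : Ergodic R ν := by
  refine ⟨⟨hR, ?_⟩, ⟨fun s hs e => ?_⟩⟩
  · rw [← hπ.map_eq, Measure.map_map hR hπ.measurable,
      ← Measure.map_congr (f := π ∘ T) (g := R ∘ π) h,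
      ← Measure.map_map hπ.measurable hT.measurable, hT.map_eq]
  · have : T ⁻¹' (π ⁻¹' s) =ᵐ[μ] π ⁻¹' s := eventuallyEq_set.2 (h.mono fun x hx => by
      rw [mem_preimage, mem_preimage, hx, ← mem_preimage, e, mem_preimage])
    rcases hT.quasiErgodic.ae_empty_or_univ₀ (hπ.measurable hs).nullMeasurableSet this with k | k
    · rw [ae_eq_empty, hπ.measure_preimage hs.nullMeasurableSet] at k
      exact eventuallyConst_set'.2 (Or.inl (ae_eq_empty.2 k))
    · rw [ae_eq_univ, ← preimage_compl, hπ.measure_preimage hs.compl.nullMeasurableSet] at k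
      exact eventuallyConst_set'.2 (Or.inr (ae_eq_univ.2 k))

theorem orbit_model {T : X → X} (hT : Ergodic T μ) [MeasurableEq X] :
    ∃ m : Measure (ℕ → X), Ergodic (fun (w : ℕ → X) n => w (n + 1)) m ∧
      MeasurePreserving (fun w : ℕ → X => w 0) m μ ∧ ∀ᵐ w ∂m, w 1 = T (w 0) := by
  have ho : Measurable fun (x : X) (n : ℕ) => T^[n] x :=
    measurable_pi_lambda _ fun n => hT.measurable.iterate n
  refine ⟨μ.map fun x n => T^[n] x, (ho.measurePreserving μ).ergodic_of_ergodic_semiconj hT
    (by fun_prop) fun _ => rfl, ⟨measurable_pi_apply 0, ?_⟩, ?_⟩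
  · rw [Measure.map_map (measurable_pi_apply 0) ho]
    exact Measure.map_id
  · exact (ae_map_iff ho.aemeasurable (measurableSet_eq_fun (measurable_pi_apply 1)
      (hT.measurable.comp (measurable_pi_apply 0)))).2 (Eventually.of_forall fun _ => rfl)

/-- Existence of an ergodic joining. -/
theorem exists_joining [StandardBorelSpace X] [StandardBorelSpace Y] [IsProbabilityMeasure μ]
    [IsProbabilityMeasure ν] {T : X → X} {R : Y → Y} (hT : Ergodic T μ) (hR : Ergodic R ν) :
    ∃ l : Measure (X × Y), IsProbabilityMeasure l ∧ Ergodic (Prod.map T R) l ∧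
      MeasurePreserving Prod.fst l μ ∧ MeasurePreserving Prod.snd l ν := by
  obtain ⟨_, _, _⟩ := ‹StandardBorelSpace X›.polish
  obtain ⟨_, _, _⟩ := ‹StandardBorelSpace Y›.polish
  obtain ⟨m, a1, a2, a3⟩ := orbit_model hT
  obtain ⟨m', b1, b2, b3⟩ := orbit_model hR
  have i1 : IsProbabilityMeasure m := ⟨(a2.measure_preimage .univ).trans measure_univ⟩
  have i2 : IsProbabilityMeasure m' := ⟨(b2.measure_preimage .univ).trans measure_univ⟩
  obtain ⟨l, i, h1, h2, h3⟩ := joining_cont (by fun_prop) (by fun_prop) a1 b1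
  have h2' : MeasurePreserving Prod.fst l m := ⟨measurable_fst, h2⟩
  have h3' : MeasurePreserving Prod.snd l m' := ⟨measurable_snd, h3⟩
  have hp : Measurable fun z : (ℕ → X) × (ℕ → Y) => (z.1 0, z.2 0) := by fun_prop
  refine ⟨_, Measure.isProbabilityMeasure_map hp.aemeasurable,
    ergodic_factor (hp.measurePreserving l) h1 (hT.measurable.prodMap hR.measurable) ?_,
    ⟨measurable_fst, ?_⟩, ⟨measurable_snd, ?_⟩⟩
  · filter_upwards [h2'.quasiMeasurePreserving.ae a3, h3'.quasiMeasurePreserving.ae b3] with z a b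
    exact Prod.ext a b
  · rw [Measure.map_map measurable_fst hp]
    exact (a2.comp h2').map_eq
  · rw [Measure.map_map measurable_snd hp]
    exact (b2.comp h3').map_eq

end Vale.Agent.N109
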