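import Vale.Agent.N109.Defs
import Vale.Agent.N109.Bern
import Vale.Agent.N109.Join
import Vale.Agent.P109.F674.Done
import Vale.Agent.P109L.Fac
import Vale.Agent.P130.H454.Iso

/-! Systems without smooth model above every ergodic system and of every entropy. -/

noncomputable section

open MeasureTheory Set Filter
open scoped ENNReal NNReal

namespace Vale.Agent.N109

open Vale.Agent.P109 Vale.Agent.P109.KS Vale.Agent.P109.Smooth Vale.Agent.P109L

variable {X Y Z : Type} [MeasurableSpace X] [MeasurableSpace Y] [MeasurableSpace Z]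
  {μ : Measure X} {ν : Measure Y} {l : Measure Z} {T : X → X} {R : Y → Y} {S : Z → Z}

theorem Factor.trans (h : Factor l S μ T) (h' : Factor μ T ν R) : Factor l S ν R := by
  obtain ⟨π, h1, h2⟩ := h
  obtain ⟨π', h3, h4⟩ := h'
  refine ⟨π' ∘ π, h3.comp h1, ?_⟩
  filter_upwards [h2, h1.quasiMeasurePreserving.ae h4] with z a b
  rw [Function.comp_apply, a, b, Function.comp_apply]

theorem Factor.ks (h : Factor μ T ν R) (hT : MeasurePreserving T μ μ) (hR : Measurable R) :
    ksEntropy ν R ≤ ksEntropy μ T :=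
  let ⟨_, h1, h2⟩ := h
  ks_factor h1 hT hR h2

theorem Factor.smooth (h : Factor μ T ν R) (h' : IsSmoothFactor μ T) : IsSmoothFactor ν R := by
  have key : ∀ {d : ℕ} {H : Type} [TopologicalSpace H]
      {J : ModelWithCorners ℝ (EuclideanSpace ℝ (Fin d)) H},
      IsFactorOn J μ T → IsFactorOn J ν R := by
    rintro d H _ J ⟨M, i1, i2, i3, m, F, h1, h2, h3, h4, h5, h6, h7⟩
    exact ⟨M, i1, i2, i3, m, F, h1, h2, h3, h4, h5, h6, Factor.trans h7 h⟩
  exact h'.imp (fun ⟨d, hd⟩ => ⟨d, key hd⟩) fun ⟨d, h0, hd⟩ => ⟨d, h0, key hd⟩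

theorem factor_of_iso [MeasurableSpace.CountablyGenerated Y] (hT : MeasurePreserving T μ μ)
    (h : Iso0 μ T ν R) : Factor μ T ν R := by
  obtain ⟨X₀, Y₀, F, hX, -, -, -, -, hB, -, hc⟩ := h
  have e : ∀ B, (X₀ ∩ F ⁻¹' B : Set X) =ᵐ[μ] (F ⁻¹' B : Set X) := fun B =>
    inter_ae_eq_right_of_ae_eq_univ (ae_eq_univ.2 hX)
  have hm : AEMeasurable F μ :=
    NullMeasurable.aemeasurable fun B h => (hB B h).1.congr (e B)
  refine ⟨hm.mk F, ⟨hm.measurable_mk, ?_⟩, ?_⟩
  · rw [← Measure.map_congr hm.ae_eq_mk]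
    ext B h
    rw [Measure.map_apply_of_aemeasurable hm h, ← measure_congr (e B), (hB B h).2]
  · filter_upwards [show ∀ᵐ x ∂μ, x ∈ X₀ from hX, hm.ae_eq_mk,
      hT.quasiMeasurePreserving.ae_eq hm.ae_eq_mk] with x a b c
    rw [← b, ← hc x a]
    exact c.symm

theorem above (Y : Type) [MeasurableSpace Y] [StandardBorelSpace Y] (ν : Measure Y)
    [IsProbabilityMeasure ν] (R : Y ≃ᵐ Y) (hR : Ergodic R ν) :
    ∃ T : unitInterval ≃ᵐ unitInterval, Ergodic T volume ∧ Factor volume T ν R ∧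
      ksEntropy volume T = ksEntropy ν R ∧
      ∀ (X : Type) [MeasurableSpace X] [StandardBorelSpace X] (μ : Measure X) (S : X → X),
        Factor μ S volume T → ¬ HasModel μ S := by
  obtain ⟨X, _, _, μ, _, T, ha, he, hk, hn⟩ := F674.main_factor
  obtain ⟨l, _, h1, h2, h3⟩ := exists_joining he hR
  obtain ⟨φ, hφ⟩ := P130.H454.exists_equiv l (volume : Measure unitInterval) (fun z =>
    measure_mono_null (fun w hw => congrArg Prod.fst hw) ((h2.measure_preimage
      (measurableSet_singleton z.1).nullMeasurableSet).trans (ha _))) fun y => measure_singleton y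
  let S : unitInterval ≃ᵐ unitInterval := (φ.symm.trans (T.prodCongr R)).trans φ
  have hS : Ergodic S volume := hφ.ergodic_conjugate_iff.2 h1
  have f1 : Factor l (Prod.map T R) volume S := ⟨φ, hφ, Eventually.of_forall fun z =>
    congrArg (fun w => φ (Prod.map T R w)) (φ.symm_apply_apply z).symm⟩
  have f2 : Factor volume S l (Prod.map T R) :=
    ⟨φ.symm, hφ.symm φ, Eventually.of_forall fun z => φ.symm_apply_apply _⟩
  have f3 : Factor volume S ν R := f2.trans ⟨_, h3, Eventually.of_forall fun _ => rfl⟩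
  have f4 : Factor volume S μ T := f2.trans ⟨_, h2, Eventually.of_forall fun _ => rfl⟩
  refine ⟨S, hS, f3, le_antisymm ?_ (f3.ks hS.toMeasurePreserving R.measurable),
    fun X' _ _ μ' S' hf hm => ?_⟩
  · refine (f1.ks h1.toMeasurePreserving S.measurable).trans ((ks_joining T.measurable
      R.measurable h1.toMeasurePreserving h2 h3).trans_eq ?_)
    rw [hk, zero_add]
  · have : IsProbabilityMeasure μ' :=
      ⟨(hf.choose_spec.1.measure_preimage .univ).trans measure_univ⟩
    have := nonempty_of_isProbabilityMeasure μ'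
    exact hn ((hf.trans f4).smooth (isSmoothFactor_of_hasModel hm))

theorem every (h : ℝ≥0) : ∃ T : unitInterval ≃ᵐ unitInterval,
    Ergodic T volume ∧ ksEntropy volume T = h ∧ ¬ HasModel volume T := by
  obtain ⟨k, p, _, hp⟩ := exists_vector h.2
  obtain ⟨T, h1, -, h2, h3⟩ := above _ (bern p) (sh _) (sh_ergodic p)
  refine ⟨T, h1, ?_, h3 _ _ _ ⟨id, .id _, Eventually.of_forall fun _ => rfl⟩⟩
  rw [h2, ks_bern, hp]
  exact ENNReal.ofReal_coe_nnreal

theorem main :
    (∃ T : unitInterval ≃ᵐ unitInterval,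
      Ergodic T volume ∧ ksEntropy volume T < ⊤ ∧ ¬ HasModel volume T) ∧
    (∃ T : ℝ≥0 → unitInterval ≃ᵐ unitInterval,
      (∀ h, Ergodic (T h) volume ∧ ksEntropy volume (T h) = h ∧ ¬ HasModel volume (T h)) ∧
      ∀ h h', Iso0 volume (T h) volume (T h') → h = h') ∧
    ∀ (Y : Type) [MeasurableSpace Y] [StandardBorelSpace Y] (ν : Measure Y)
      [IsProbabilityMeasure ν] (R : Y ≃ᵐ Y), Ergodic R ν →
      ∃ T : unitInterval ≃ᵐ unitInterval, Ergodic T volume ∧ Factor volume T ν R ∧
        ksEntropy volume T = ksEntropy ν R ∧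
        ∀ (X : Type) [MeasurableSpace X] [StandardBorelSpace X] (μ : Measure X) (S : X → X),
          Factor μ S volume T → ¬ HasModel μ S := by
  choose T h1 h2 h3 using every
  refine ⟨⟨T 0, h1 0, h2 0 ▸ ENNReal.coe_lt_top, h3 0⟩,
    ⟨T, fun h => ⟨h1 h, h2 h, h3 h⟩, fun h h' e => ?_⟩, above⟩
  have a := (factor_of_iso (h1 h).toMeasurePreserving e).ks (h1 h).toMeasurePreserving
    (T h').measurable
  have b := Factor.ks (factor_of_iso0 (h1 h').toMeasurePreserving e) (h1 h').toMeasurePreserving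
    (T h).measurable
  rw [h2, h2] at a b
  exact_mod_cast le_antisymm b a

end Vale.Agent.N109
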